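import Vale.Agent.P109.Spectral.Basic
import Vale.Agent.P109.Spectral.Spec

/-!
P109: conjugates of translations and their continuous dependence on the translation.
-/

namespace Vale.Agent.P109.Spectral

open Filter Topology

noncomputable section

/-- A smooth function of a parameter and a point, periodic in the point and zero at one parameter,
is small to any order near that parameter. -/
theorem eventually_small_of_periodic {ι : Type} [Fintype ι]
    (G : (ι → ℝ) × (ι → ℝ) → (ι → ℝ)) (hG : ContDiff ℝ (⊤ : ℕ∞) G) (t : ι → ℝ)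
    (ht : ∀ x, G (t, x) = 0) (hper : ∀ s x k, G (s, x + intVec k) = G (s, x))
    (i : ℕ) {ε : ℝ} (hε : 0 < ε) :
    ∀ᶠ s in 𝓝 t, ∀ x, ‖iteratedFDeriv ℝ i (fun z => G (s, z)) x‖ ≤ ε := by
  set inr : (ι → ℝ) →L[ℝ] (ι → ℝ) × (ι → ℝ) := ContinuousLinearMap.inr ℝ _ _
  have key : ∀ s x, iteratedFDeriv ℝ i (fun z => G (s, z)) x =
      (iteratedFDeriv ℝ i G (s, x)).compContinuousLinearMap fun _ => inr := by
    intro s x
    have h1 : ContDiff ℝ (⊤ : ℕ∞) fun p => G ((s, 0) + p) :=
      hG.comp (contDiff_const.add contDiff_id)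
    have h2 := inr.iteratedFDeriv_comp_right h1 x (i := i) (by exact_mod_cast le_top)
    have e : (fun p => G ((s, 0) + p)) ∘ inr = fun z => G (s, z) := funext fun z => by simp [inr]
    rw [e, iteratedFDeriv_comp_add_left i ((s, 0) : (ι → ℝ) × (ι → ℝ))] at h2
    simpa [inr] using h2
  have hcont : Continuous fun p : (ι → ℝ) × (ι → ℝ) =>
      iteratedFDeriv ℝ i (fun z => G (p.1, z)) p.2 := by
    simp only [key]
    exact (ContinuousMultilinearMap.compContinuousLinearMapL
      (fun _ : Fin i => inr)).continuous.comp (hG.continuous_iteratedFDeriv (by exact_mod_cast le_top))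
  have h0 : ∀ x, iteratedFDeriv ℝ i (fun z => G (t, z)) x = 0 := fun x => by
    rw [show (fun z => G (t, z)) = fun _ => 0 from funext ht]
    simp
  have hK : ∀ᶠ s in 𝓝 t, ∀ x ∈ Set.Icc (0 : ι → ℝ) 1,
      ‖iteratedFDeriv ℝ i (fun z => G (s, z)) x‖ < ε := by
    refine isCompact_Icc.eventually_forall_of_forall_eventually fun x _ => ?_
    refine hcont.norm.continuousAt.eventually_lt continuousAt_const ?_
    simpa [h0] using hε
  refine hK.mono fun s hs x => ?_
  have hmem : (fun l => Int.fract (x l)) ∈ Set.Icc (0 : ι → ℝ) 1 :=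
    ⟨fun l => Int.fract_nonneg _, fun l => (Int.fract_lt_one _).le⟩
  have e : (fun z => G (s, z)) = fun z => G (s, z + intVec fun l => ⌊x l⌋) :=
    funext fun z => (hper s z _).symm
  have h1 := congrArg (fun f => iteratedFDeriv ℝ i f fun l => Int.fract (x l)) e
  simp only [iteratedFDeriv_comp_add_right' (f := fun z => G (s, z)) i (intVec fun l => ⌊x l⌋)] at h1
  rw [show (fun l => Int.fract (x l)) + intVec (fun l => ⌊x l⌋) = x from
    funext fun l => by simp [intVec, Int.fract_add_floor]] at h1
  rw [← h1]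
  exact (hs _ hmem).le

theorem conjSpec : ConjSpec := by
  constructor
  · intro ι _ H s
    refine ⟨H.comp ((TD.rot s).comp H.symm), fun x => rfl, fun x => rfl, fun k => ?_⟩
    simp [TD.comp, TD.rot, TD.symm]
  · intro ι _ H t j ε hε
    let G : ℝ → (ι → ℝ) × (ι → ℝ) → (ι → ℝ) := fun σ p =>
      H.f (H.g p.2 + σ • p.1) - H.f (H.g p.2 + σ • t)
    have hG : ∀ σ, ContDiff ℝ (⊤ : ℕ∞) (G σ) := fun σ =>
      (H.smooth_f.comp ((H.smooth_g.comp contDiff_snd).add (contDiff_fst.const_smul σ))).sub
        (H.smooth_f.comp ((H.smooth_g.comp contDiff_snd).add contDiff_const))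
    have hper : ∀ σ s x k, G σ (s, x + intVec k) = G σ (s, x) := fun σ s x k => by
      simp only [G, H.equivariant_g, add_right_comm _ (intVec _), H.equivariant]
      abel
    have hall : ∀ σ, ∀ᶠ s in 𝓝 t, ∀ i ∈ Finset.range (j + 1), ∀ x,
        ‖iteratedFDeriv ℝ i (fun z => G σ (s, z)) x‖ ≤ ε := fun σ =>
      (eventually_all_finset _).2 fun i _ =>
        eventually_small_of_periodic (G σ) (hG σ) t (fun x => sub_self _) (hper σ) i hε
    obtain ⟨δ, hδ, hball⟩ := Metric.eventually_nhds_iff.1 ((hall 1).and (hall (-1)))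
    refine ⟨δ, hδ, fun s S T hst hS hT => ?_⟩
    obtain ⟨h1, h2⟩ := hball (show dist s t < δ by rwa [dist_eq_norm])
    constructor
    · intro i hi x
      have e : (fun z => S.f z - T.f z) = fun z => G 1 (s, z) :=
        funext fun z => by simp [G, hS.1, hT.1]
      rw [e]
      exact h1 i (Finset.mem_range.2 (Nat.lt_succ_of_le hi)) x
    · intro i hi x
      have e : (fun z => S.g z - T.g z) = fun z => G (-1) (s, z) :=
        funext fun z => by simp [G, hS.2.1, hT.2.1, sub_eq_add_neg]
      rw [e]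
      exact h2 i (Finset.mem_range.2 (Nat.lt_succ_of_le hi)) x

end

end Vale.Agent.P109.Spectral
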