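import Vale.Agent.P109.Spectral.Basic
import Vale.Agent.P109.Spectral.Spec

/-!
P109: limits of fast converging sequences of torus diffeomorphisms.
-/

namespace Vale.Agent.P109.Spectral

open MeasureTheory Filter Topology
open scoped BoundedContinuousFunction

noncomputable section

private instance circleProbLimit : IsProbabilityMeasure (volume : Measure UnitAddCircle) :=
  ⟨by simp⟩

variable {ι : Type} [Fintype ι]

theorem dist_proj_le (a b : ι → ℝ) : dist (proj a) (proj b) ≤ ‖a - b‖ := by
  refine (dist_pi_le_iff (norm_nonneg _)).2 fun i => ?_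
  rw [dist_eq_norm]
  exact QuotientAddGroup.norm_mk_le_norm.trans (norm_le_pi_norm (a - b) i)

/-- lifts converging fast to every order have a smooth limit -/
theorem exists_smooth_limit (a : ℕ → (ι → ℝ) → (ι → ℝ)) (ha : ∀ n, ContDiff ℝ (⊤ : ℕ∞) (a n))
    (hd : ∀ n, LiftClose n ((1 / 2) ^ n) (a (n + 1)) (a n)) :
    ∃ F : (ι → ℝ) → (ι → ℝ), ContDiff ℝ (⊤ : ℕ∞) F ∧
      ∀ n x, ‖a n x - F x‖ ≤ 2 * (1 / 2) ^ n := by
  have hb : ∀ n x, ‖a (n + 1) x - a n x‖ ≤ (1 / 2) ^ n := fun n x => by
    simpa [norm_iteratedFDeriv_zero] using hd n 0 (Nat.zero_le n) x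
  refine ⟨fun x => a 0 x + ∑' n, (a (n + 1) x - a n x), (ha 0).add ?_, fun n x => ?_⟩
  · refine contDiff_tsum_of_eventually (v := fun _ n => (1 / 2 : ℝ) ^ n)
      (fun n => (ha (n + 1)).sub (ha n)) (fun _ _ => summable_geometric_two) fun k _ => ?_
    rw [Nat.cofinite_eq_atTop]
    filter_upwards [eventually_ge_atTop k] with n hn
    exact hd n k hn
  · have hs : Summable fun n => a (n + 1) x - a n x :=
      Summable.of_norm_bounded summable_geometric_two fun n => hb n x
    have ht : Tendsto (fun n => a n x) atTop (𝓝 (a 0 x + ∑' n, (a (n + 1) x - a n x))) := by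
      refine (hs.hasSum.tendsto_sum_nat.const_add (a 0 x)).congr fun n => ?_
      rw [Finset.sum_range_sub (fun n => a n x) n, add_sub_cancel]
    have := dist_le_of_le_geometric_of_tendsto (1 / 2) 1 (by norm_num)
      (fun n => by rw [one_mul, dist_eq_norm, norm_sub_rev]; exact hb n x) ht n
    rw [dist_eq_norm] at this
    refine this.trans_eq ?_
    norm_num
    ring

theorem tendsto_of_bound {f : ℕ → (ι → ℝ) → (ι → ℝ)} {F : (ι → ℝ) → (ι → ℝ)}
    (h : ∀ n x, ‖f n x - F x‖ ≤ 2 * (1 / 2) ^ n) (x : ι → ℝ) :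
    Tendsto (fun n => f n x) atTop (𝓝 (F x)) := by
  refine tendsto_iff_norm_sub_tendsto_zero.2 (squeeze_zero (fun n => norm_nonneg _) (h · x) ?_)
  simpa using (tendsto_pow_atTop_nhds_zero_of_lt_one (by norm_num : (0 : ℝ) ≤ 1 / 2)
    (by norm_num)).const_mul 2

theorem comp_limit {f g : ℕ → (ι → ℝ) → (ι → ℝ)} {F G : (ι → ℝ) → (ι → ℝ)} (hG : Continuous G)
    (hf : ∀ n x, ‖f n x - F x‖ ≤ 2 * (1 / 2) ^ n) (hg : ∀ n x, ‖g n x - G x‖ ≤ 2 * (1 / 2) ^ n)
    (h : ∀ n x, g n (f n x) = x) (x : ι → ℝ) : G (F x) = x := by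
  refine tendsto_nhds_unique ((hG.tendsto _).comp (tendsto_of_bound hf x)) ?_
  refine tendsto_iff_norm_sub_tendsto_zero.2 (squeeze_zero (fun n => norm_nonneg _) (fun n => ?_)
    (by simpa using (tendsto_pow_atTop_nhds_zero_of_lt_one (by norm_num : (0 : ℝ) ≤ 1 / 2)
      (by norm_num)).const_mul 2 : Tendsto (fun n : ℕ => (2 : ℝ) * (1 / 2) ^ n) atTop (𝓝 0)))
  have := hg n (f n x)
  rw [h, norm_sub_rev] at this
  exact this

/-- a section of the projection -/
def sec (z : Tor ι) : ι → ℝ := fun i => (AddCircle.equivIco 1 0 (z i) : ℝ)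

omit [Fintype ι] in
theorem proj_sec (z : Tor ι) : proj (sec z) = z :=
  funext fun _ => AddCircle.coe_equivIco

omit [Fintype ι] in
theorem eq_add_intVec_of_proj {x y : ι → ℝ} (h : proj x = proj y) :
    ∃ k : ι → ℤ, y = x + intVec k := by
  have h' : ∀ i, ∃ k : ℤ, y i = x i + k := fun i => by
    have e := congrFun h i
    obtain ⟨k, hk⟩ := (AddCircle.coe_eq_zero_iff 1).1
      (show ((y i - x i : ℝ) : UnitAddCircle) = 0 by rw [AddCircle.coe_sub, sub_eq_zero]; exact e.symm)
    exact ⟨k, by simp at hk; linarith⟩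
  choose k hk using h'
  exact ⟨k, funext hk⟩

theorem limitSpec : LimitSpec := by
  intro ι _ S hid hS
  obtain ⟨F, hF, hFb⟩ :=
    exists_smooth_limit (fun n => (S n).f) (fun n => (S n).smooth_f) fun n => (hS n).1
  obtain ⟨G, hG, hGb⟩ :=
    exists_smooth_limit (fun n => (S n).g) (fun n => (S n).smooth_g) fun n => (hS n).2
  have hper : ∀ x k, F (x + intVec k) = F x + intVec k := fun x k =>
    tendsto_nhds_unique (tendsto_of_bound hFb _)
      (((tendsto_of_bound hFb x).add_const (intVec k)).congr fun n => by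
        rw [(S n).equivariant, hid n k])
  have hperG : ∀ x k, G (x + intVec k) = G x + intVec k := fun x k => by
    refine tendsto_nhds_unique (tendsto_of_bound hGb _)
      (((tendsto_of_bound hGb x).add_const (intVec k)).congr fun n => ?_)
    rw [(S n).equivariant_g, show (S n).A.symm k = k from
      (S n).A.symm_apply_eq.2 (hid n k).symm]
  have hGF := comp_limit hG.continuous hFb hGb fun n => (S n).gf
  have hFG := comp_limit hF.continuous hGb hFb fun n => (S n).fg
  have hdesc : ∀ {Φ : (ι → ℝ) → (ι → ℝ)}, (∀ x k, Φ (x + intVec k) = Φ x + intVec k) →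
      ∀ x, proj (Φ (sec (proj x))) = proj (Φ x) := by
    intro Φ hΦ x
    obtain ⟨k, hk⟩ := eq_add_intVec_of_proj (proj_sec (proj x))
    conv_rhs => rw [hk, hΦ, proj_add, proj_intVec, add_zero]
  let mF : Tor ι → Tor ι := fun z => proj (F (sec z))
  let mG : Tor ι → Tor ι := fun z => proj (G (sec z))
  have hdist : ∀ n z, dist ((S n).map z) (mF z) ≤ 2 * (1 / 2) ^ n := fun n z => by
    obtain ⟨x, rfl⟩ := proj_surjective z
    rw [(S n).map_proj, show mF (proj x) = proj (F x) from hdesc hper x]
    exact (dist_proj_le _ _).trans (hFb n x)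
  have hdistG : ∀ n z, dist ((S n).map.symm z) (mG z) ≤ 2 * (1 / 2) ^ n := fun n z => by
    obtain ⟨x, rfl⟩ := proj_surjective z
    rw [(S n).map_symm_proj, show mG (proj x) = proj (G x) from hdesc hperG x]
    exact (dist_proj_le _ _).trans (hGb n x)
  have hlim : Tendsto (fun n : ℕ => (2 : ℝ) * (1 / 2) ^ n) atTop (𝓝 0) := by
    simpa using (tendsto_pow_atTop_nhds_zero_of_lt_one (by norm_num : (0 : ℝ) ≤ 1 / 2)
      (by norm_num)).const_mul 2
  have hunif : ∀ {m : ℕ → Tor ι → Tor ι} {M : Tor ι → Tor ι}, (∀ n, Continuous (m n)) →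
      (∀ n z, dist (m n z) (M z) ≤ 2 * (1 / 2) ^ n) → Continuous M := by
    intro m M hm hd
    refine TendstoUniformly.continuous (F := m) (p := atTop) ?_ (Eventually.of_forall hm).frequently
    rw [Metric.tendstoUniformly_iff]
    intro ε hε
    filter_upwards [hlim.eventually (eventually_lt_nhds hε)] with n hn z
    rw [dist_comm]
    exact (hd n z).trans_lt hn
  have cF : Continuous mF := hunif (fun n => (S n).map.continuous) hdist
  have cG : Continuous mG := hunif (fun n => (S n).map.symm.continuous) hdistG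
  let M : Tor ι ≃ₜ Tor ι :=
    { toFun := mF
      invFun := mG
      left_inv := fun z => by
        obtain ⟨x, rfl⟩ := proj_surjective z
        rw [show mF (proj x) = proj (F x) from hdesc hper x]
        exact (hdesc hperG (F x)).trans (by rw [hGF])
      right_inv := fun z => by
        obtain ⟨x, rfl⟩ := proj_surjective z
        rw [show mG (proj x) = proj (G x) from hdesc hperG x]
        exact (hdesc hper (G x)).trans (by rw [hFG])
      continuous_toFun := cF
      continuous_invFun := cG }
  have hmp : MeasurePreserving M volume volume := by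
    refine ⟨M.continuous.measurable, ?_⟩
    have := Measure.isProbabilityMeasure_map (μ := (volume : Measure (Tor ι)))
      M.continuous.measurable.aemeasurable
    refine ext_of_forall_integral_eq_of_IsFiniteMeasure fun φ => ?_
    rw [integral_map M.continuous.measurable.aemeasurable φ.continuous.aestronglyMeasurable]
    refine tendsto_nhds_unique (tendsto_integral_of_dominated_convergence (fun _ => ‖φ‖)
      (fun n => (φ.continuous.comp (S n).map.continuous).aestronglyMeasurable)
      (integrable_const _) (fun n => Eventually.of_forall fun x => φ.norm_coe_le_norm _)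
      (Eventually.of_forall fun z => (φ.continuous.tendsto _).comp ?_)) ?_
    · exact tendsto_iff_dist_tendsto_zero.2
        (squeeze_zero (fun _ => dist_nonneg) (fun n => hdist n z) hlim)
    · refine tendsto_const_nhds.congr fun n => ?_
      exact ((S n).preserves.integral_comp (S n).map.measurableEmbedding φ).symm
  refine ⟨⟨F, G, AddEquiv.refl _, hF, hG, hGF, hFG, hper, M, fun x => hdesc hper x, hmp⟩,
    fun ε hε => ?_⟩
  obtain ⟨N, hN⟩ := eventually_atTop.1 (hlim.eventually (eventually_le_nhds hε))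
  exact ⟨N, fun n hn x => (hdist n x).trans (hN n hn)⟩

end

end Vale.Agent.P109.Spectral
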