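import Vale.Agent.P109.Spectral.Basic
import Vale.Agent.P109.Spectral.Spec

/-!
P109: a torus diffeomorphism as a diffeomorphism of the product of circles.
-/

namespace Vale.Agent.P109.Spectral

open MeasureTheory Filter Topology
open scoped Manifold

attribute [local instance] finrank_real_complex_fact'

noncomputable section

section Pi

variable {ι : Type*} [Fintype ι] {E : ι → Type*} [∀ i, NormedAddCommGroup (E i)]
  [∀ i, NormedSpace ℝ (E i)] {H : ι → Type*} [∀ i, TopologicalSpace (H i)]
  (J : ∀ i, ModelWithCorners ℝ (E i) (H i)) {M : ι → Type*} [∀ i, TopologicalSpace (M i)]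
  [∀ i, ChartedSpace (H i) (M i)]

/-- coordinates of a product manifold are smooth -/
theorem contMDiffAt_pi_apply {n : WithTop ℕ∞} (i : ι) (z : ∀ i, M i) :
    ContMDiffAt (ModelWithCorners.pi J) (J i) n (fun z : ∀ i, M i => z i) z := by
  refine contMDiffAt_iff.2 ⟨(continuous_apply i).continuousAt, ?_⟩
  refine ((ContinuousLinearMap.proj (R := ℝ) (φ := E) i).contDiff.contDiffWithinAt).congr_of_eventuallyEq
    ?_ ?_
  · filter_upwards [extChartAt_target_mem_nhdsWithin (I := ModelWithCorners.pi J) z] with y hy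
    have h : (y i) ∈ (extChartAt (J i) (z i)).target := by
      simp [extChartAt, ModelWithCorners.pi, mfld_simps] at hy ⊢
      exact ⟨hy.1 i, hy.2 i (Set.mem_univ i)⟩
    exact (extChartAt (J i) (z i)).right_inv h
  · exact congrArg (extChartAt (J i) (z i))
      (congrFun ((extChartAt (ModelWithCorners.pi J) z).left_inv (mem_extChartAt_source z)) i)

/-- maps into a product manifold are smooth when their coordinates are -/
theorem contMDiffAt_pi_of {E' : Type*} [NormedAddCommGroup E'] [NormedSpace ℝ E'] {H' : Type*}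
    [TopologicalSpace H'] {I : ModelWithCorners ℝ E' H'} {N : Type*} [TopologicalSpace N]
    [ChartedSpace H' N] {n : WithTop ℕ∞} {f : N → ∀ i, M i} {x : N}
    (h : ∀ i, ContMDiffAt I (J i) n (fun y => f y i) x) :
    ContMDiffAt I (ModelWithCorners.pi J) n f x :=
  contMDiffAt_iff_target.2 ⟨continuousAt_pi.2 fun i => (h i).continuousAt,
    contMDiffAt_pi_space.2 fun i => (contMDiffAt_iff_target.1 (h i)).2⟩

end Pi

variable {d : ℕ}

/-- the torus is the product of circles -/
def torHomeo (d : ℕ) : Tor (Ix d) ≃ₜ (Ix d → Circle) :=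
  Homeomorph.piCongrRight fun _ => AddCircle.homeomorphCircle one_ne_zero

theorem torHomeo_apply (x : Tor (Ix d)) : torHomeo d x = toCircles x :=
  funext fun _ => AddCircle.homeomorphCircle_apply _ _

theorem toCircles_proj (x : Ix d → ℝ) :
    toCircles (proj x) = fun i => Circle.exp (2 * Real.pi * x i) := by
  funext i
  show AddCircle.toCircle ((x i : ℝ) : UnitAddCircle) = _
  rw [AddCircle.toCircle_apply_mk, div_one]

theorem measurePreserving_toCircles : MeasurePreserving (toCircles (d := d)) volume (circVol d) := by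
  have hm : Measurable (toCircles (d := d)) := measurable_pi_lambda _ fun i =>
    AddCircle.continuous_toCircle.measurable.comp (measurable_pi_apply i)
  have hv : MeasurePreserving (proj (ι := Ix d))
      (volume.restrict (Set.univ.pi fun _ : Ix d => Set.Ico (0 : ℝ) 1)) volume := by
    rw [volume_pi, volume_pi, Measure.restrict_pi_pi]
    refine measurePreserving_pi (fun _ => (volume : Measure ℝ).restrict (Set.Ico 0 1))
      (fun _ => (volume : Measure UnitAddCircle)) (f := fun _ x => (x : UnitAddCircle)) fun _ => ?_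
    rw [restrict_Ico_eq_restrict_Ioc]
    simpa using UnitAddCircle.measurePreserving_mk 0
  refine ⟨hm, ?_⟩
  rw [← hv.map_eq, Measure.map_map hm hv.measurable, circVol]
  congr 1
  exact funext toCircles_proj

/-- a torus diffeomorphism is smooth on the product of circles -/
theorem contMDiff_torHomeo (T : TD (Ix d)) :
    ContMDiff (ModelWithCorners.pi fun _ : Ix d => 𝓡 1)
      (ModelWithCorners.pi fun _ : Ix d => 𝓡 1) (⊤ : ℕ∞)
      fun z => torHomeo d (T.map ((torHomeo d).symm z)) := by
  intro z₀
  obtain ⟨L, hL⟩ : ∃ L : (Ix d → Circle) → Ix d → ℝ, L = fun z i =>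
      (Complex.arg (z₀ i) + Complex.arg ((z i * (z₀ i)⁻¹ : Circle) : ℂ)) / (2 * Real.pi) :=
    ⟨_, rfl⟩
  have hglob : ∀ z, toCircles (proj (L z)) = z := fun z => by
    rw [toCircles_proj]
    funext i
    rw [hL, mul_div_cancel₀ _ (by positivity : (2 * Real.pi : ℝ) ≠ 0), Circle.exp_add,
      Circle.exp_arg, Circle.exp_arg, mul_comm (z i), mul_inv_cancel_left]
  have hS : ∀ z i, torHomeo d (T.map ((torHomeo d).symm z)) i =
      Circle.exp (2 * Real.pi * T.f (L z) i) := fun z i => by
    conv_lhs => rw [← hglob z, ← torHomeo_apply, Homeomorph.symm_apply_apply, T.map_proj,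
      torHomeo_apply, toCircles_proj]
  have hLs : ContMDiffAt (ModelWithCorners.pi fun _ : Ix d => 𝓡 1) 𝓘(ℝ, Ix d → ℝ) (⊤ : ℕ∞) L z₀ := by
    refine contMDiffAt_pi_space.2 fun i => ?_
    have hc : ContMDiffAt (ModelWithCorners.pi fun _ : Ix d => 𝓡 1) 𝓘(ℝ, ℂ) (⊤ : ℕ∞)
        (fun z : Ix d → Circle => (z i : ℂ)) z₀ :=
      (contMDiff_coe_sphere.contMDiffAt).comp z₀
        (contMDiffAt_pi_apply (fun _ : Ix d => 𝓡 1) i z₀)
    have hg : ContDiffAt ℝ (⊤ : ℕ∞) (fun w : ℂ => (Complex.arg (z₀ i) +
        (Complex.log (w * ((z₀ i)⁻¹ : Circle))).im) / (2 * Real.pi)) (z₀ i : ℂ) := by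
      have h1 : ((z₀ i : ℂ) * ((z₀ i)⁻¹ : Circle)) = 1 := by
        rw [← Circle.coe_mul, mul_inv_cancel, Circle.coe_one]
      have hlog : ContDiffAt ℝ (⊤ : ℕ∞) Complex.log ((z₀ i : ℂ) * ((z₀ i)⁻¹ : Circle)) := by
        rw [h1]
        exact (Complex.contDiffAt_log Complex.one_mem_slitPlane).restrict_scalars ℝ
      exact (contDiffAt_const.add (Complex.imCLM.contDiff.contDiffAt.comp (z₀ i : ℂ)
        (hlog.comp (z₀ i : ℂ) (contDiffAt_id.mul contDiffAt_const)))).div_const _
    have := hg.contMDiffAt.comp z₀ hc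
    refine this.congr_of_eventuallyEq (Eventually.of_forall fun z => ?_)
    simp [hL, Complex.log_im]
  refine contMDiffAt_pi_of _ fun i => ?_
  simp only [hS]
  have hf : ContDiff ℝ (⊤ : ℕ∞) fun v : Ix d → ℝ => 2 * Real.pi * T.f v i :=
    contDiff_const.mul ((contDiff_apply ℝ ℝ i).comp T.smooth_f)
  exact contMDiff_circleExp.contMDiffAt.comp z₀ (hf.contMDiff.contMDiffAt.comp z₀ hLs)

theorem manifoldSpec : ManifoldSpec := by
  intro d T
  let S : (Ix d → Circle) ≃ (Ix d → Circle) :=
    ((torHomeo d).symm.toEquiv.trans T.map.toEquiv).trans (torHomeo d).toEquiv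
  have hSe : ∀ x, S (toCircles x) = toCircles (T.map x) := fun x => by
    show torHomeo d (T.map ((torHomeo d).symm (toCircles x))) = _
    rw [← torHomeo_apply x, Homeomorph.symm_apply_apply, torHomeo_apply]
  refine ⟨S, contMDiff_torHomeo T, ?_, ?_, measurePreserving_toCircles, hSe⟩
  · exact contMDiff_torHomeo T.symm
  · have hSm : Measurable S := ((torHomeo d).continuous.comp
      (T.map.continuous.comp (torHomeo d).symm.continuous)).measurable
    refine ⟨hSm, ?_⟩
    have h := (measurePreserving_toCircles (d := d)).comp T.preserves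
    rw [← (measurePreserving_toCircles (d := d)).map_eq,
      Measure.map_map hSm (measurePreserving_toCircles (d := d)).measurable,
      show S ∘ toCircles = toCircles ∘ T.map from funext hSe, h.map_eq,
      (measurePreserving_toCircles (d := d)).map_eq]

end

end Vale.Agent.P109.Spectral
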